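import Vale.Agent.P287Q.H3.St
import Vale.Agent.P287Q.Mf.Api
import Vale.Agent.P287Q.Mf.Quo
import Vale.Agent.P287Q.Hb.PV
import Vale.Agent.P269.Spl.Dim

/-!
# Classes of unbalanced type vanish on analytic sets of half their degree
-/

set_option linter.unusedSectionVars false
set_option linter.style.haveILetI false

namespace Vale.Agent.P287Q.Hd

open Set Function Topology Filter Module P291Z P269 P269.Holo P269.Mono P269.Tq H3
open scoped Manifold ContDiff

section mf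

variable {M : CM} {X : Type} [TopologicalSpace X] {i : X → M.M}

theorem base_chg (hi : Continuous i) {a b : M.M} {x : X}
    (ha : i x ∈ (chartAt (Fin M.n → ℂ) a).source) (hb : i x ∈ (chartAt (Fin M.n → ℂ) b).source) :
    HolAt (fun y => chartAt (Fin M.n → ℂ) a (i y)) (fun y => chartAt (Fin M.n → ℂ) b (i y)) x :=
  ⟨_, Mf.an_trans (chart_mem_atlas _ a) (chart_mem_atlas _ b) ha hb, by
    filter_upwards [hi.continuousAt.eventually ((chartAt _ a).open_source.mem_nhds ha)] with y hy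
    rw [(chartAt _ a).left_inv hy]⟩

/-- The trace of `range i` in the chart at `a`. -/
def trc (i : X → M.M) (a : M.M) : Set (Fin M.n → ℂ) :=
  {z | (chartAt (Fin M.n → ℂ) a).symm z ∈ range i}

theorem base_mdl (hi : IsEmbedding i) {k : ℕ}
    (han : ∀ x, An (trc i (i x)) (chartAt (Fin M.n → ℂ) (i x) (i x)))
    (hs : ∀ x, ∃ U ∈ 𝓝 (chartAt (Fin M.n → ℂ) (i x) (i x)), Small k (U ∩ trc i (i x))) :
    Mdl (fun f x => HolAt (fun y => chartAt (Fin M.n → ℂ) (i x) (i y)) f x) fun _ S => Small k S := by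
  intro x
  obtain ⟨l, h, h1, h2⟩ := han x
  obtain ⟨U, h3, h4⟩ := hs x
  set e := chartAt (Fin M.n → ℂ) (i x)
  obtain ⟨Ω, h5, h6, h7⟩ := eventually_nhds_iff.1 ((h1.eventually_analyticAt.and h2).and
    (inter_mem h3 (chart_target_mem_nhds (Fin M.n → ℂ) (i x))))
  have h8 : (fun y => e (i y)) '' (i ⁻¹' (e.source ∩ e ⁻¹' Ω)) = Ω ∩ trc i (i x) := by
    refine Subset.antisymm ?_ fun z ⟨k1, y, k2⟩ => ?_
    · rintro _ ⟨y, hy, rfl⟩
      exact ⟨hy.2, y, (e.left_inv hy.1).symm⟩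
    · have k3 : e (i y) = z := by rw [k2, e.right_inv (h5 z k1).2.2]
      exact ⟨y, ⟨k2 ▸ e.map_target (h5 z k1).2.2, mem_of_eq_of_mem (s := Ω) k3 k1⟩, k3⟩
  refine ⟨_, l, i ⁻¹' (e.source ∩ e ⁻¹' Ω), Ω, fun j z => h z j, fun y => e (i y),
    ⟨mem_chart_source _ _, h7⟩, ⟨(e.isOpen_inter_preimage h6).preimage hi.continuous, h6,
      fun j z hz => analyticAt_pi_iff.1 (h5 z hz).1.1 j, h8.trans (Set.ext fun z =>
        and_congr_right fun hz => (h5 z hz).1.2.trans funext_iff), ?_, fun y hy f => ?_⟩,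
    h8 ▸ h4.mono fun z hz => ⟨(h5 z hz.1).2.1, hz.2⟩⟩
  · exact e.isOpenEmbedding_restrict.isEmbedding.comp
      ((hi.comp IsEmbedding.subtypeVal).codRestrict e.source fun y => y.2.1)
  · exact ⟨fun k => k.trans (base_chg hi.continuous hy.1 (mem_chart_source _ _)),
      fun k => HolAt.trans (ι := fun y => e (i y)) k (base_chg hi.continuous (mem_chart_source _ _) hy.1)⟩

/-- **The base case on a manifold.** -/
theorem base_mf (hR : StResC) (hV : StVan) [Nice X] [CompactSpace X] (i : C(X, M.M))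
    (hi : IsEmbedding i) {v : ℕ}
    (han : ∀ x, An (trc i (i x)) (chartAt (Fin M.n → ℂ) (i x) (i x)))
    (hs : ∀ x, ∃ U ∈ 𝓝 (chartAt (Fin M.n → ℂ) (i x) (i x)), Small (2 * v) (U ∩ trc i (i x)))
    {p q : ℕ} (hpq : p + q = 2 * v) (hne : p ≠ q) {a : H M.M} (ha : Mf.IsHg M.n p q a) :
    H.map i a = 0 := by
  obtain ⟨m, rfl⟩ : ∃ m, v = m + 1 := ⟨v - 1, by omega⟩
  obtain ⟨N, φ, h1, h2, h3⟩ := hR X _ m (base_mdl hi han hs)
  have h4 : Mf.Hol N.n M.n (i.comp φ) := ⟨(i.comp φ).continuous, fun y =>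
    analyticAt_pi_iff.2 fun j => h2 y (fun x => chartAt (Fin M.n → ℂ) (i (φ y)) (i x) j)
      ⟨fun z => z j, analyticAt_pi_iff.1 analyticAt_id j, .of_forall fun _ => rfl⟩⟩
  refine h3 _ ?_ ?_
  · have := ha.isDeg.map i
    rwa [hpq, Nat.cast_mul] at this
  · rw [H.map_map]
    exact hV N p q _ (ha.map h4) (by omega)

end mf

section quo

variable {A W : Type} [NormedRing A] [NormedAlgebra ℂ A] [NormedAddCommGroup W] [NormedSpace ℂ W]
  [FiniteDimensional ℂ A] [FiniteDimensional ℂ W] {act : A → W → W} {S Z : Set W} [IsAct act univ]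
  {n : ℤ}

/-- Near each of its points `Z` is the zero set in `S` of an analytic map. -/
def AnIn (S Z : Set W) : Prop := ∀ x ∈ Z, ∃ (k : ℕ) (h : W → Fin k → ℂ), AnalyticAt ℂ h x ∧
  ∀ᶠ y in 𝓝 x, y ∈ S → (y ∈ Z ↔ h y = 0)

/-- **The base case.** -/
theorem base (hR : StResC) (hV : StVan) (h : QM act S n) (e : Z ⊆ S) (hi : Ivt act Z)
    (hc : IsClosed (Subtype.val ⁻¹' Z : Set S)) (han : AnIn S Z) {v : ℕ}
    (hd : DimLt (finrank ℂ A + v + 1) Z) {p q : ℤ} (hpq : p + q = 2 * v) (hne : p ≠ q)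
    {a : H (Quo act S)} (ha : a ∈ Hb.QT act S p q) : H.map (qinc act e) a = 0 := by
  by_cases h0 : 0 ≤ p ∧ 0 ≤ q
  swap
  · rw [Hb.QT, Hb.HT, if_neg h0, Submodule.mem_bot] at ha
    rw [ha, map_zero]
  obtain ⟨p, rfl⟩ := Int.eq_ofNat_of_zero_le h0.1
  obtain ⟨q, rfl⟩ := Int.eq_ofNat_of_zero_le h0.2
  have := h.fp
  have := h.fp.lc
  have := h.cpt
  have := FiniteDimensional.complete ℂ A
  have := FiniteDimensional.complete ℂ W
  have := QMA.fp_sub h.fp e hi (IsClosedEmbedding.inclusion e hc).locallyCompactSpace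
  have h1 := isClosedEmbedding_qinc (act := act) e hc
  have := h1.compactSpace
  letI := Mf.cs h.dim
  haveI := Mf.isManifold h.dim
  let M : CM := ⟨n.toNat, Quo act S⟩
  have key : ∀ x : Quo act Z, ∃ φ : (Fin n.toNat → ℂ) → Sp act S,
      Mf.Sl φ (chartAt (Fin M.n → ℂ) (qinc act e x) (qinc act e x)) ∧
      (φ (chartAt (Fin M.n → ℂ) (qinc act e x) (qinc act e x))).val ∈ Z ∧
      ∀ᶠ z in 𝓝 (chartAt (Fin M.n → ℂ) (qinc act e x) (qinc act e x)),
        z ∈ trc (M := M) (qinc act e) (qinc act e x) ↔ (φ z).val ∈ Z := fun x => by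
    obtain ⟨φ, h2⟩ := Mf.gd_chartAt h.dim (qinc act e x)
    have h3 : ∀ z ∈ (chartAt (Fin M.n → ℂ) (qinc act e x)).target,
        z ∈ trc (M := M) (qinc act e) (qinc act e x) ↔ (φ z).val ∈ Z := fun z hz => by
      rw [← mk_mem_range_qinc e, ← (h2 z hz).2]
      rfl
    exact ⟨φ, (h2 _ (mem_chart_target _ _)).1, (h3 _ (mem_chart_target _ _)).1
      ⟨x, ((chartAt _ _).left_inv (mem_chart_source _ _)).symm⟩,
      mem_of_superset (chart_target_mem_nhds _ _) h3⟩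
  refine base_mf (M := M) hR hV (qinc act e) h1.isEmbedding (v := v) (fun x => ?_) (fun x => ?_)
    (by omega) (by omega) ((Mf.pres h.dim).mem_HT.1 ha)
  · obtain ⟨φ, h2, h3, h4⟩ := key x
    obtain ⟨k, f, h5, h6⟩ := han _ h3
    refine ⟨k, fun z => f (φ z).val, AnalyticAt.comp (g := f) h5 h2.an, ?_⟩
    filter_upwards [h4, h2.an.continuousAt.eventually h6] with z h7 h8
    exact h7.trans (h8 (Sp.val_mem _))
  · obtain ⟨φ, ⟨-, h2, w, h3, h5⟩, -, h4⟩ := key x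
    obtain ⟨U, V, hU, h6, hV, h7, h8⟩ := mem_nhds_prod_iff'.1
      (h5.and (h2.continuousAt.eventually h3.eventually_analyticAt))
    refine ⟨_, inter_mem (hV.mem_nhds h7) h4, dimLt_succ.1 (DimLt.of_prod hU ⟨0, h6⟩ ?_)⟩
    refine (((hd.image_an' w).image (f := fun p => (p.2, p.1)) fun _ _ => by fun_prop).le
      (by omega)).mono ?_
    rintro ⟨z, t⟩ ⟨hz, ht⟩
    obtain ⟨e1, e2⟩ := h8 (mk_mem_prod ht hz.1.1)
    exact ⟨(t, z), ⟨_, ⟨hi _ (expU t).isUnit _ (hz.1.2.1 hz.2), e2⟩, e1⟩, rfl⟩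

end quo

section poly

open MvPolynomial

variable {J R ι : Type} [Fintype J] [Fintype R] {π : J → R} {A Z : Set (J → ℂ)} {n : ℕ}

/-- Finitely many equations suffice. -/
theorem exists_fin_eqn (P : ι → MvPolynomial J ℂ) : ∃ (k : ℕ) (g : Fin k → MvPolynomial J ℂ),
    ∀ x : J → ℂ, (∀ i, eval x (P i) = 0) ↔ gv g x = 0 := by
  obtain ⟨k, g, hg⟩ := Submodule.fg_iff_exists_fin_generating_family.1
    (IsNoetherian.noetherian (Ideal.span (range P)))
  refine ⟨k, g, fun x => ?_⟩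
  have h : ∀ {κ : Type} (Q : κ → MvPolynomial J ℂ),
      (∀ i, eval x (Q i) = 0) ↔ Ideal.span (range Q) ≤ RingHom.ker (MvPolynomial.eval x) := fun Q => by
    rw [Ideal.span_le, range_subset_iff]
    rfl
  rw [h, _root_.funext_iff, ← hg]
  exact (h g).symm

theorem an_gv {κ : Type} [Fintype κ] (g : κ → MvPolynomial J ℂ) (x : J → ℂ) :
    AnalyticAt ℂ (gv g) x :=
  analyticAt_pi_iff.2 fun k => AnalyticOnNhd.eval_mvPolynomial (g k) x (mem_univ x)

/-- **The base case for algebraic sets.** -/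
theorem base_poly (hR : StResC) (hV : StVan) (h : PV π A n) (P : ι → MvPolynomial J ℂ)
    (hZ : ∀ x, x ∈ Z ↔ x ∈ A ∧ ∀ i, eval x (P i) = 0) (hi : Ivt (scl π) Z) {v : ℕ}
    (hd : DimLt (Fintype.card R + v + 1) Z) {p q : ℤ} (hpq : p + q = 2 * v) (hne : p ≠ q)
    {a : H (Spc π A)} (ha : a ∈ Hb.QT (scl π) A p q) (e : Z ⊆ A) :
    H.map (qinc (scl π) e) a = 0 := by
  obtain ⟨k, g, hg⟩ := exists_fin_eqn P
  have := isAct_scl π
  have h1 : ∀ y ∈ A, y ∈ Z ↔ gv g y = 0 := fun y hy => by rw [hZ, hg, and_iff_right hy]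
  refine base hR hV h.qm e hi ?_ (fun x _ => ⟨k, gv g, an_gv g x, .of_forall h1⟩)
    (by rwa [finrank_fintype_fun_eq_card]) hpq hne ha
  rw [show (Subtype.val ⁻¹' Z : Set A) = {y | gv g y.1 = 0} from Set.ext fun y => h1 y y.2]
  exact isClosed_eq ((continuous_iff_continuousAt.2 fun y => (an_gv g y).continuousAt).comp
    continuous_subtype_val) continuous_const

end poly

end Vale.Agent.P287Q.Hd
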